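import Mathlib

/-!
# P112, [CUT]: an empty window of pair distances in a finite set of slopes

`S` a finite set of slopes, `s0 ∈ S`, all slopes within `b0` of `s0`, the others covered by `m`
relative arcs `{s : |s - c| ≤ 4 η |c - s0|}`.  Among the `3 (m+1)^2` windows
`(b0 H^{-(k+1)}, b0 H^{-k}]` one contains no pair distance of `S`.
-/

open Finset

namespace Vale.Agent.P112.H55

/-- **An empty window.** -/
theorem exists_window (S : Finset ℝ) {s0 b0 : ℝ} (hb0 : 0 < b0) (hS : ∀ s ∈ S, |s - s0| ≤ b0)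
    {m : ℕ} (c : Fin m → ℝ) {η H : ℝ} (hη : 0 ≤ η) (hH : 2 ≤ H)
    (hηH : 16 * η * H ^ (3 * (m + 1) ^ 2) ≤ 1)
    (hcov : ∀ s ∈ S, s ≠ s0 → ∃ i, |s - c i| ≤ 4 * η * |c i - s0|) :
    ∃ k < 3 * (m + 1) ^ 2, ∀ s ∈ S, ∀ t ∈ S,
      |s - t| ≤ b0 / H ^ (k + 1) ∨ H * (b0 / H ^ (k + 1)) < |s - t| := by
  classical
  set K := 3 * (m + 1) ^ 2 with hK
  have hH0 : 0 < H := by linarith
  have hK1 : 1 ≤ K := by
    have : 1 ≤ (m + 1) ^ 2 := Nat.one_le_pow _ _ (Nat.succ_pos m)
    omega
  have hHK : (1 : ℝ) ≤ H ^ K := one_le_pow₀ (by linarith)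
  have hη16 : 16 * η ≤ 1 := by nlinarith
  -- centres
  let C : Option (Fin m) → ℝ := fun o => o.elim s0 c
  have hidx : ∀ s ∈ S, ∃ o : Option (Fin m), |s - C o| ≤ 8 * η * b0 := by
    intro s hs
    by_cases h : s = s0
    · refine ⟨none, ?_⟩
      simp only [C, Option.elim_none]
      rw [h, sub_self, abs_zero]
      positivity
    · obtain ⟨i, hi⟩ := hcov s hs h
      refine ⟨some i, ?_⟩
      simp only [C, Option.elim_some]
      have h1 : |c i - s0| ≤ |s - c i| + |s - s0| := by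
        have := abs_sub_le (c i) s s0
        rwa [abs_sub_comm (c i) s] at this
      have h2 := hS s hs
      have h3 : |c i - s0| ≤ 2 * b0 := by
        nlinarith [abs_nonneg (c i - s0)]
      calc |s - c i| ≤ 4 * η * |c i - s0| := hi
        _ ≤ 4 * η * (2 * b0) := mul_le_mul_of_nonneg_left h3 (by positivity)
        _ = 8 * η * b0 := by ring
  choose! idx hidx' using hidx
  by_contra hcon
  push Not at hcon
  choose! s hs t ht h1 h2 using hcon
  -- pigeonhole
  let T : Finset (Option (Fin m) × Option (Fin m)) := Finset.univ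
  have hT : T.card = (m + 1) ^ 2 := by
    simp [T, Finset.card_univ, Fintype.card_prod, Fintype.card_option]
    ring
  have hmaps : ∀ k ∈ Finset.range K, (fun k => (idx (s k), idx (t k))) k ∈ T :=
    fun k _ => Finset.mem_univ _
  have hlt : T.card * 2 < (Finset.range K).card := by
    rw [hT, Finset.card_range, hK]
    have : 0 < (m + 1) ^ 2 := Nat.pow_pos (Nat.succ_pos m)
    omega
  obtain ⟨y, -, hy⟩ := Finset.exists_lt_card_fiber_of_mul_lt_card_of_maps_to hmaps hlt
  set F := (Finset.range K).filter (fun k => (idx (s k), idx (t k)) = y) with hF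
  have hFne : F.Nonempty := Finset.card_pos.mp (by omega)
  set k1 := F.min' hFne with hk1
  set k3 := F.max' hFne with hk3
  have hk1F : k1 ∈ F := F.min'_mem hFne
  have hk3F : k3 ∈ F := F.max'_mem hFne
  have hgap : k1 + 2 ≤ k3 := by
    have hsub : F ⊆ Finset.Icc k1 k3 := by
      intro k hk
      exact Finset.mem_Icc.mpr ⟨F.min'_le k hk, F.le_max' k hk⟩
    have := Finset.card_le_card hsub
    rw [Nat.card_Icc] at this
    omega
  have hk1K : k1 < K := Finset.mem_range.mp (Finset.mem_filter.mp hk1F).1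
  have hk3K : k3 < K := Finset.mem_range.mp (Finset.mem_filter.mp hk3F).1
  have he1 : (idx (s k1), idx (t k1)) = y := (Finset.mem_filter.mp hk1F).2
  have he3 : (idx (s k3), idx (t k3)) = y := (Finset.mem_filter.mp hk3F).2
  have a1 := h1 k1 hk1K
  have a3 := h2 k3 hk3K
  -- the two distances are close
  have hclose : |s k1 - t k1| - |s k3 - t k3| ≤ 32 * η * b0 := by
    have b1 := hidx' (s k1) (hs k1 hk1K)
    have b2 := hidx' (t k1) (ht k1 hk1K)
    have b3 := hidx' (s k3) (hs k3 hk3K)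
    have b4 := hidx' (t k3) (ht k3 hk3K)
    have e1 : idx (s k1) = idx (s k3) := by
      have := congrArg Prod.fst (he1.trans he3.symm); exact this
    have e2 : idx (t k1) = idx (t k3) := by
      have := congrArg Prod.snd (he1.trans he3.symm); exact this
    rw [e1] at b1
    rw [e2] at b2
    have c1 : |s k1 - t k1| ≤ |C (idx (s k3)) - C (idx (t k3))| + 16 * η * b0 := by
      have : s k1 - t k1 = (C (idx (s k3)) - C (idx (t k3))) + (s k1 - C (idx (s k3)))
          - (t k1 - C (idx (t k3))) := by ring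
      rw [this]
      calc _ ≤ |(C (idx (s k3)) - C (idx (t k3))) + (s k1 - C (idx (s k3)))|
            + |t k1 - C (idx (t k3))| := abs_sub _ _
        _ ≤ |C (idx (s k3)) - C (idx (t k3))| + |s k1 - C (idx (s k3))|
            + |t k1 - C (idx (t k3))| := by
            gcongr
            exact abs_add_le _ _
        _ ≤ _ := by linarith
    have c3 : |C (idx (s k3)) - C (idx (t k3))| ≤ |s k3 - t k3| + 16 * η * b0 := by
      have : C (idx (s k3)) - C (idx (t k3)) = (s k3 - t k3) - (s k3 - C (idx (s k3)))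
          + (t k3 - C (idx (t k3))) := by ring
      rw [this]
      calc _ ≤ |(s k3 - t k3) - (s k3 - C (idx (s k3)))| + |t k3 - C (idx (t k3))| :=
            abs_add_le _ _
        _ ≤ |s k3 - t k3| + |s k3 - C (idx (s k3))| + |t k3 - C (idx (t k3))| := by
            gcongr
            exact abs_sub _ _
        _ ≤ _ := by linarith
    linarith
  -- but they lie in windows which are far apart
  have hHk3 : 0 < H ^ k3 := pow_pos hH0 _
  have d3 : |s k3 - t k3| ≤ b0 / H ^ k3 := by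
    refine a3.trans (le_of_eq ?_)
    rw [pow_succ]
    field_simp
  have d1 : H * (b0 / H ^ k3) ≤ b0 / H ^ (k1 + 1) := by
    have : b0 / H ^ (k1 + 1) = b0 / H ^ k3 * H ^ (k3 - (k1 + 1)) := by
      have e : H ^ k3 = H ^ (k1 + 1) * H ^ (k3 - (k1 + 1)) := by
        rw [← pow_add]; congr 1; omega
      rw [e]
      have := pow_pos hH0 (k1 + 1)
      have := pow_pos hH0 (k3 - (k1 + 1))
      field_simp
    rw [this]
    have h5 : H ≤ H ^ (k3 - (k1 + 1)) := by
      calc H = H ^ 1 := (pow_one H).symm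
        _ ≤ H ^ (k3 - (k1 + 1)) := pow_le_pow_right₀ (by linarith) (by omega)
    have : 0 ≤ b0 / H ^ k3 := by positivity
    nlinarith
  have d5 : 2 * (b0 / H ^ K) ≤ b0 / H ^ k3 := by
    have : b0 / H ^ k3 = b0 / H ^ K * H ^ (K - k3) := by
      have e : H ^ K = H ^ k3 * H ^ (K - k3) := by
        rw [← pow_add]; congr 1; omega
      rw [e]
      have := pow_pos hH0 (K - k3)
      field_simp
    rw [this]
    have h5 : 2 ≤ H ^ (K - k3) := by
      calc (2 : ℝ) ≤ H := hH
        _ = H ^ 1 := (pow_one H).symm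
        _ ≤ H ^ (K - k3) := pow_le_pow_right₀ (by linarith) (by omega)
    have : 0 ≤ b0 / H ^ K := by positivity
    nlinarith
  have d6 : 32 * η * b0 ≤ 2 * (b0 / H ^ K) := by
    have h6 : 16 * η ≤ 1 / H ^ K := by
      rw [le_div_iff₀ (by positivity)]
      exact hηH
    calc 32 * η * b0 = 2 * (16 * η) * b0 := by ring
      _ ≤ 2 * (1 / H ^ K) * b0 := by gcongr
      _ = 2 * (b0 / H ^ K) := by ring
  have h7 : 0 ≤ b0 / H ^ k3 := by positivity
  nlinarith

/-- **The cut**: an empty window `(τ, H τ]`, `τ = b0 / H ^ (k+1)`, and at most `m + 1` classes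
modulo the equivalence relation of being at distance `≤ τ`. -/
theorem exists_cut (S : Finset ℝ) {s0 b0 : ℝ} (hb0 : 0 < b0) (hS : ∀ s ∈ S, |s - s0| ≤ b0)
    {m : ℕ} (c : Fin m → ℝ) {η H : ℝ} (hη : 0 ≤ η) (hH : 2 ≤ H)
    (hηH : 16 * η * H ^ (3 * (m + 1) ^ 2) ≤ 1)
    (hcov : ∀ s ∈ S, s ≠ s0 → ∃ i, |s - c i| ≤ 4 * η * |c i - s0|) :
    ∃ k < 3 * (m + 1) ^ 2, ∃ τ : ℝ, τ = b0 / H ^ (k + 1) ∧ 0 < τ ∧
      (∀ s ∈ S, ∀ t ∈ S, |s - t| ≤ τ ∨ H * τ < |s - t|) ∧
      (∀ s ∈ S, ∀ t ∈ S, ∀ r ∈ S, |s - t| ≤ τ → |t - r| ≤ τ → |s - r| ≤ τ) ∧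
      ∃ f : ℝ → Fin (m + 1), ∀ s ∈ S, ∀ t ∈ S, f s = f t ↔ |s - t| ≤ τ := by
  classical
  obtain ⟨k, hk, hwin⟩ := exists_window S hb0 hS c hη hH hηH hcov
  have hH0 : 0 < H := by linarith
  have hτ : 0 < b0 / H ^ (k + 1) := by positivity
  set τ := b0 / H ^ (k + 1) with hτd
  have htrans : ∀ s ∈ S, ∀ t ∈ S, ∀ r ∈ S, |s - t| ≤ τ → |t - r| ≤ τ → |s - r| ≤ τ := by
    intro s hs t ht r hr h1 h2
    rcases hwin s hs r hr with h | h
    · exact h
    · exfalso
      have h3 : |s - r| ≤ |s - t| + |t - r| := abs_sub_le s t r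
      nlinarith
  refine ⟨k, hk, τ, rfl, hτ, hwin, htrans, ?_⟩
  -- indices
  have hηK : 16 * η * b0 ≤ τ := by
    have h1 : 16 * η ≤ 1 / H ^ (3 * (m + 1) ^ 2) := by
      rw [le_div_iff₀ (by positivity)]
      exact hηH
    have h2 : 1 / H ^ (3 * (m + 1) ^ 2) ≤ 1 / H ^ (k + 1) := by
      apply one_div_le_one_div_of_le (by positivity)
      exact pow_le_pow_right₀ (by linarith) (by omega)
    calc 16 * η * b0 ≤ 1 / H ^ (k + 1) * b0 :=
          mul_le_mul_of_nonneg_right (h1.trans h2) hb0.le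
      _ = τ := by rw [hτd]; ring
  have hη16 : 16 * η ≤ 1 := by
    have : (1 : ℝ) ≤ H ^ (3 * (m + 1) ^ 2) := one_le_pow₀ (by linarith)
    nlinarith
  let C : Option (Fin m) → ℝ := fun o => o.elim s0 c
  have hidx : ∀ s ∈ S, ∃ o : Option (Fin m), |s - C o| ≤ 8 * η * b0 := by
    intro s hs
    by_cases h : s = s0
    · refine ⟨none, ?_⟩
      simp only [C, Option.elim_none]
      rw [h, sub_self, abs_zero]
      positivity
    · obtain ⟨i, hi⟩ := hcov s hs h
      refine ⟨some i, ?_⟩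
      simp only [C, Option.elim_some]
      have h1 : |c i - s0| ≤ |s - c i| + |s - s0| := by
        have := abs_sub_le (c i) s s0
        rwa [abs_sub_comm (c i) s] at this
      have h2 := hS s hs
      have h3 : |c i - s0| ≤ 2 * b0 := by
        nlinarith [abs_nonneg (c i - s0)]
      calc |s - c i| ≤ 4 * η * |c i - s0| := hi
        _ ≤ 4 * η * (2 * b0) := mul_le_mul_of_nonneg_left h3 (by positivity)
        _ = 8 * η * b0 := by ring
  choose! idx hidx' using hidx
  let e : Option (Fin m) ≃ Fin (m + 1) := Fintype.equivFinOfCardEq (by simp)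
  have hsame : ∀ s ∈ S, ∀ t ∈ S, e (idx s) = e (idx t) → |s - t| ≤ τ := by
    intro s hs t ht h
    have h1 := hidx' s hs
    have h2 := hidx' t ht
    rw [← e.injective h] at h2
    have h3 : |s - t| ≤ |s - C (idx s)| + |t - C (idx s)| := by
      have := abs_sub_le s (C (idx s)) t
      rwa [abs_sub_comm (C (idx s)) t] at this
    linarith
  let cl : ℝ → Finset ℝ := fun s => S.filter fun t => |s - t| ≤ τ
  let f : ℝ → Fin (m + 1) := fun s =>
    if h : (cl s).Nonempty then ((cl s).image fun t => e (idx t)).min' (h.image _) else 0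
  have hmem : ∀ s ∈ S, s ∈ cl s := fun s hs =>
    Finset.mem_filter.mpr ⟨hs, by rw [sub_self, abs_zero]; exact hτ.le⟩
  refine ⟨f, fun s hs t ht => ⟨fun h => ?_, fun h => ?_⟩⟩
  · have hs' : (cl s).Nonempty := ⟨s, hmem s hs⟩
    have ht' : (cl t).Nonempty := ⟨t, hmem t ht⟩
    have h1 : f s ∈ (cl s).image fun t => e (idx t) := by
      simp only [f, dif_pos hs']
      exact Finset.min'_mem _ _
    have h2 : f t ∈ (cl t).image fun t => e (idx t) := by
      simp only [f, dif_pos ht']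
      exact Finset.min'_mem _ _
    obtain ⟨a, ha, hae⟩ := Finset.mem_image.mp h1
    obtain ⟨b, hb, hbe⟩ := Finset.mem_image.mp h2
    have ha' := Finset.mem_filter.mp ha
    have hb' := Finset.mem_filter.mp hb
    have hab : |a - b| ≤ τ := hsame a ha'.1 b hb'.1 (by rw [hae, hbe, h])
    have hsb := htrans s hs a ha'.1 b hb'.1 ha'.2 hab
    exact htrans s hs b hb'.1 t ht hsb (by rw [abs_sub_comm]; exact hb'.2)
  · have hcl : cl s = cl t := by
      ext r
      simp only [cl, Finset.mem_filter]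
      constructor
      · rintro ⟨hr, h1⟩
        exact ⟨hr, htrans t ht s hs r hr (by rw [abs_sub_comm]; exact h) h1⟩
      · rintro ⟨hr, h1⟩
        exact ⟨hr, htrans s hs t ht r hr h h1⟩
    simp only [f, hcl]

end Vale.Agent.P112.H55
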